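import Vale.Agent.N372B.Main

/-!
# P372: bipartite bound information

States, protocols, final states and errors are defined in `Vale/Agent/P372W90/Defs.lean`; the key
rate of an arbitrary state of `A B E`, the intrinsic information, the information of formation and
the source are defined in `Vale/Agent/N372B/Defs.lean`.
-/

open Matrix

namespace Vale.Agent.Results.P372.A0BoundInformation

open Vale.Agent.P372W Vale.Agent.N372B

/-- (1) For `s ^ 4 < e ≤ s ^ 3 / 4` (for instance `s = 1 / 5`, `e = 1 / 500`) the classical source
gives no key bit, while its intrinsic information and its information of formation are positive.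
(2) Checks: a shared secret bit has key rate at least `1`; if `X`, `Y` are independent given `Z`,
the information of formation is `0`. -/
theorem result :
    (∀ s e : ℝ, 0 < s → s ^ 4 < e → 4 * e ≤ s ^ 3 →
      IsState (diagState (source s e)) ∧
      (∀ (n ℓ : ℕ) (π : Protocol (Fin ℓ → Bool) (Fin n → Fin 3) (Fin n → Fin 3)) (ε : ℝ), 1 ≤ ℓ →
        HasError π (power n (diagState (source s e))) ε → 2 / 3 ≤ ε) ∧
      keyRate (diagState (source s e)) = 0 ∧ 0 < intrinsic (source s e) ∧
      0 < formRate (source s e) ∧ formRate (source s e) ≤ 2) ∧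
    1 ≤ keyRate (diagState fun p : (Bool × Bool) × Unit => if p.1.1 = p.1.2 then 1 / 2 else 0) ∧
    ∀ (X Z : Type) [Fintype X] [DecidableEq X] [Fintype Z] (a b : Z → X → ℝ),
      (∀ z x, 0 ≤ a z x) → ∑ z, ∑ x, a z x = 1 → (∀ z y, 0 ≤ b z y) → (∀ z, ∑ y, b z y = 1) →
        formRate (fun p : (X × X) × Z => a p.2 p.1.1 * b p.2 p.1.2) = 0 :=
  ⟨fun _ _ hs h4 h3 => bound_information hs h4 h3, keyRate_bit,
    fun X Z _ _ _ a b ha ha1 hb hb1 => by classical exact formRate_indep a b ha ha1 hb hb1⟩

end Vale.Agent.Results.P372.A0BoundInformation
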