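import Vale.Agent.N372.Main

/-!
# P372: open sets of PPT and of NPT entangled states without secret key

All notions are defined in `Vale/Agent/N372/Defs.lean`.
-/

open Filter Topology
open scoped ComplexOrder

namespace Vale.Agent.Results.P372.A0BoundKey

open Vale.Agent.N372

/-- (1) In all large dimensions there is an open set of PPT entangled states with `K_D = 0`.
(2) For every `c` and all large `d`, the Werner states with `1 / d < t ≤ c / d` and all states
near them are not PPT, entangled, have `K_D = 0` and are undistillable for every number of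
copies. -/
theorem result :
    (∃ d₀ : ℕ, ∀ a ≥ d₀, ∀ b ≥ d₀, ∃ ρ₀ : Matrix (Fin a × Fin b) (Fin a × Fin b) ℂ, IsState ρ₀ ∧
      ∀ᶠ ρ in 𝓝 ρ₀, IsState ρ → (bobT ρ).PosSemidef ∧ ¬ Separable ρ ∧ ZeroKey ρ) ∧
    ∀ c : ℝ, ∃ d₀ : ℕ, ∀ d ≥ d₀, ∀ t : ℝ, 1 < t * d → t * d ≤ c → IsState (werner d t) ∧
      ∀ᶠ ρ in 𝓝 (werner d t), IsState ρ →
        ¬ (bobT ρ).PosSemidef ∧ ¬ Separable ρ ∧ ZeroKey ρ ∧ Undistillable ρ :=
  ⟨ppt_open, npt_open⟩

end Vale.Agent.Results.P372.A0BoundKey
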